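import Vale.Agent.P065.CompC0
import Vale.Agent.P065.CompSign1
import Vale.Agent.P065.CompSign2

/-! Row CS: signs and sizes of the heights in the composite; the lemmas are in `CompSign1` (row CS1)
and `CompSign2` (row CS2). -/
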