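import Vale.Agent.P065.GadCountB
import Vale.Agent.P065.GadCountL

/-! Row G3: counts in the gadget (G3a is in GadCountL; G3b, G3c are in GadCountB). -/
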